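import Mathlib

/-!
# Primitive recursive integer arithmetic

Primitive recursiveness (Mathlib's `Primrec`) of the basic operations on `ℤ`, with respect to
Mathlib's `Primcodable ℤ` instance (the one coming from `Denumerable ℤ`, i.e. the code of a
natural number `n` is `2 * n` and the code of `Int.negSucc n` is `2 * n + 1`).

Everything is stated both as `Primrec`/`Primrec₂`/`PrimrecRel` facts about the operations and in
"composition form" (`hf : Primrec f → hg : Primrec g → Primrec fun a => f a + g a`).
-/

namespace Crest.Agent.Helper26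

open Encodable Denumerable

theorem encode_int_ofNat (n : ℕ) : encode ((n : ℕ) : ℤ) = 2 * n := rfl

theorem encode_int_negSucc (n : ℕ) : encode (Int.negSucc n) = 2 * n + 1 := rfl

theorem ofNat_int (n : ℕ) :
    ofNat ℤ n = if n % 2 = 0 then ((n / 2 : ℕ) : ℤ) else Int.negSucc (n / 2) := by
  apply encode_injective
  rw [encode_ofNat]
  split_ifs with h
  · rw [encode_int_ofNat]; omega
  · rw [encode_int_negSucc]; omega

/-- The cast `ℕ → ℤ` is primitive recursive. -/
theorem primrec_int_natCast : Primrec (fun n : ℕ => (n : ℤ)) :=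
  Primrec.encode_iff.1 (Primrec.nat_double.of_eq fun n => (encode_int_ofNat n).symm)

/-- `Int.negSucc` is primitive recursive. -/
theorem primrec_int_negSucc : Primrec Int.negSucc :=
  Primrec.encode_iff.1 (Primrec.nat_double_succ.of_eq fun n => (encode_int_negSucc n).symm)

private theorem primrec_half : Primrec (fun n : ℕ => n / 2) :=
  Primrec.nat_div.comp Primrec.id (Primrec.const 2)

private theorem primrecPred_even : PrimrecPred (fun n : ℕ => n % 2 = 0) :=
  Primrec.eq.comp (Primrec.nat_mod.comp Primrec.id (Primrec.const 2)) (Primrec.const 0)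

/-- `Int.natAbs` is primitive recursive. -/
theorem primrec_int_natAbs : Primrec Int.natAbs := by
  refine Primrec.ofNat_iff.2 ?_
  have h : Primrec (fun n : ℕ => if n % 2 = 0 then n / 2 else n / 2 + 1) :=
    Primrec.ite primrecPred_even primrec_half (Primrec.succ.comp primrec_half)
  refine h.of_eq fun n => ?_
  rw [ofNat_int]; split_ifs
  · exact (Int.natAbs_natCast _).symm
  · rfl

/-- `Int.toNat` is primitive recursive. -/
theorem primrec_int_toNat : Primrec Int.toNat := by
  refine Primrec.ofNat_iff.2 ?_
  have h : Primrec (fun n : ℕ => if n % 2 = 0 then n / 2 else 0) :=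
    Primrec.ite primrecPred_even primrec_half (Primrec.const 0)
  refine h.of_eq fun n => ?_
  rw [ofNat_int]; split_ifs
  · exact (Int.toNat_natCast _).symm
  · rfl

/-- The negative part `z ↦ (-z).toNat` is primitive recursive. -/
theorem primrec_int_negPart : Primrec (fun z : ℤ => (-z).toNat) := by
  refine Primrec.ofNat_iff.2 ?_
  have h : Primrec (fun n : ℕ => if n % 2 = 0 then 0 else n / 2 + 1) :=
    Primrec.ite primrecPred_even (Primrec.const 0) (Primrec.succ.comp primrec_half)
  refine h.of_eq fun n => ?_
  rw [ofNat_int]; split_ifs with h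
  · have : (-((n / 2 : ℕ) : ℤ)).toNat = 0 := by omega
    exact this.symm
  · rfl

/-- The difference of two naturals, as an integer, is primitive recursive. -/
theorem primrec₂_int_subNat : Primrec₂ (fun a b : ℕ => (a : ℤ) - (b : ℤ)) := by
  have h : Primrec₂ (fun a b : ℕ => if b ≤ a then ((a - b : ℕ) : ℤ) else Int.negSucc (b - a - 1)) :=
    Primrec.ite (Primrec.nat_le.comp Primrec.snd Primrec.fst)
      (primrec_int_natCast.comp (Primrec.nat_sub.comp Primrec.fst Primrec.snd))
      (primrec_int_negSucc.comp (Primrec.nat_sub.comp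
        (Primrec.nat_sub.comp Primrec.snd Primrec.fst) (Primrec.const 1)))
  refine h.of_eq fun a b => ?_
  split_ifs with h
  · push_cast [Nat.cast_sub h]; ring
  · rw [Int.negSucc_eq]; push_cast [Nat.cast_sub (by omega : 1 ≤ b - a), Nat.cast_sub (by omega : a ≤ b)]; ring

theorem int_eq_toNat_sub_negPart (z : ℤ) : z = (z.toNat : ℤ) - ((-z).toNat : ℤ) := by
  omega

variable {α : Type*} [Primcodable α]

/-- Composition form: the difference of two primitive recursive naturals, as an integer. -/
theorem Primrec.int_subNat {f g : α → ℕ} (hf : Primrec f) (hg : Primrec g) :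
    Primrec fun a => (f a : ℤ) - (g a : ℤ) :=
  primrec₂_int_subNat.comp hf hg

theorem Primrec.int_natCast {f : α → ℕ} (hf : Primrec f) : Primrec fun a => (f a : ℤ) :=
  primrec_int_natCast.comp hf

theorem Primrec.int_natAbs {f : α → ℤ} (hf : Primrec f) : Primrec fun a => (f a).natAbs :=
  primrec_int_natAbs.comp hf

theorem Primrec.int_toNat {f : α → ℤ} (hf : Primrec f) : Primrec fun a => (f a).toNat :=
  primrec_int_toNat.comp hf

theorem Primrec.int_negPart {f : α → ℤ} (hf : Primrec f) : Primrec fun a => (-(f a)).toNat :=
  primrec_int_negPart.comp hf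

/-- Composition form of negation. -/
theorem Primrec.int_neg {f : α → ℤ} (hf : Primrec f) : Primrec fun a => -(f a) := by
  refine (Primrec.int_subNat (Primrec.int_negPart hf) (Primrec.int_toNat hf)).of_eq fun a => ?_
  omega

/-- Composition form of addition. -/
theorem Primrec.int_add {f g : α → ℤ} (hf : Primrec f) (hg : Primrec g) :
    Primrec fun a => f a + g a := by
  refine (Primrec.int_subNat
    (Primrec.nat_add.comp (Primrec.int_toNat hf) (Primrec.int_toNat hg))
    (Primrec.nat_add.comp (Primrec.int_negPart hf) (Primrec.int_negPart hg))).of_eq fun a => ?_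
  push_cast; omega

/-- Composition form of subtraction. -/
theorem Primrec.int_sub {f g : α → ℤ} (hf : Primrec f) (hg : Primrec g) :
    Primrec fun a => f a - g a := by
  refine (Primrec.int_add hf (Primrec.int_neg hg)).of_eq fun a => ?_
  ring

/-- Composition form of multiplication. -/
theorem Primrec.int_mul {f g : α → ℤ} (hf : Primrec f) (hg : Primrec g) :
    Primrec fun a => f a * g a := by
  refine (Primrec.int_subNat
    (Primrec.nat_add.comp
      (Primrec.nat_mul.comp (Primrec.int_toNat hf) (Primrec.int_toNat hg))
      (Primrec.nat_mul.comp (Primrec.int_negPart hf) (Primrec.int_negPart hg)))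
    (Primrec.nat_add.comp
      (Primrec.nat_mul.comp (Primrec.int_toNat hf) (Primrec.int_negPart hg))
      (Primrec.nat_mul.comp (Primrec.int_negPart hf) (Primrec.int_toNat hg)))).of_eq fun a => ?_
  have h1 := int_eq_toNat_sub_negPart (f a)
  have h2 := int_eq_toNat_sub_negPart (g a)
  push_cast
  conv_rhs => rw [h1, h2]
  ring

theorem primrec_int_neg : Primrec (fun z : ℤ => -z) := Primrec.int_neg Primrec.id

theorem primrec₂_int_add : Primrec₂ (fun a b : ℤ => a + b) :=
  Primrec.int_add Primrec.fst Primrec.snd

theorem primrec₂_int_sub : Primrec₂ (fun a b : ℤ => a - b) :=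
  Primrec.int_sub Primrec.fst Primrec.snd

theorem primrec₂_int_mul : Primrec₂ (fun a b : ℤ => a * b) :=
  Primrec.int_mul Primrec.fst Primrec.snd

/-- `≤` on `ℤ` is a primitive recursive relation. -/
theorem primrecRel_int_le : PrimrecRel (fun a b : ℤ => a ≤ b) := by
  have h : PrimrecRel (fun a b : ℤ => a.toNat + (-b).toNat ≤ b.toNat + (-a).toNat) :=
    Primrec.nat_le.comp
      (Primrec.nat_add.comp (primrec_int_toNat.comp Primrec.fst) (primrec_int_negPart.comp Primrec.snd))
      (Primrec.nat_add.comp (primrec_int_toNat.comp Primrec.snd) (primrec_int_negPart.comp Primrec.fst))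
  refine h.of_eq fun a b => ?_
  omega

/-- `<` on `ℤ` is a primitive recursive relation. -/
theorem primrecRel_int_lt : PrimrecRel (fun a b : ℤ => a < b) := by
  have h : PrimrecRel (fun a b : ℤ => a.toNat + (-b).toNat < b.toNat + (-a).toNat) :=
    Primrec.nat_lt.comp
      (Primrec.nat_add.comp (primrec_int_toNat.comp Primrec.fst) (primrec_int_negPart.comp Primrec.snd))
      (Primrec.nat_add.comp (primrec_int_toNat.comp Primrec.snd) (primrec_int_negPart.comp Primrec.fst))
  refine h.of_eq fun a b => ?_
  omega

theorem PrimrecPred.int_le {f g : α → ℤ} (hf : Primrec f) (hg : Primrec g) :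
    PrimrecPred fun a => f a ≤ g a :=
  primrecRel_int_le.comp hf hg

theorem PrimrecPred.int_lt {f g : α → ℤ} (hf : Primrec f) (hg : Primrec g) :
    PrimrecPred fun a => f a < g a :=
  primrecRel_int_lt.comp hf hg

end Crest.Agent.Helper26
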