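import Crest.Agent.Helper26.PrimrecInt

/-!
# Primitive recursive rational arithmetic

Primitive recursiveness (Mathlib's `Primrec`) of the basic operations on `ℚ`, with respect to
Mathlib's default `Primcodable ℚ` instance, i.e. `Primcodable.ofDenumerable ℚ` for
`Denumerable.ofEncodableOfInfinite ℚ`: the code of `q` is the number of elements of the range
of `Rat.instEncodable.encode` below `Nat.pair (encode q.num) q.den`.
-/

namespace Crest.Agent.Helper26

open Encodable Denumerable

/-! ### divisibility and gcd on `ℕ` -/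

theorem primrecRel_nat_dvd : PrimrecRel (fun a b : ℕ => a ∣ b) :=
  (Primrec.eq.comp (Primrec.nat_mod.comp Primrec.snd Primrec.fst) (Primrec.const 0)).of_eq
    fun _ => (Nat.dvd_iff_mod_eq_zero).symm

theorem nat_gcd_eq_findGreatest (a b : ℕ) :
    Nat.gcd a b = Nat.findGreatest (fun g => g ∣ a ∧ g ∣ b) (a + b) := by
  symm
  rw [Nat.findGreatest_eq_iff]
  refine ⟨?_, fun _ => ⟨Nat.gcd_dvd_left a b, Nat.gcd_dvd_right a b⟩, ?_⟩
  · rcases Nat.eq_zero_or_pos a with rfl | ha
    · simp
    · exact (Nat.gcd_le_left b ha).trans (Nat.le_add_right a b)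
  · rintro n hn hnk ⟨h1, h2⟩
    have hd := Nat.dvd_gcd h1 h2
    rcases Nat.eq_zero_or_pos (Nat.gcd a b) with h0 | hpos
    · rw [Nat.gcd_eq_zero_iff] at h0
      omega
    · exact absurd (Nat.le_of_dvd hpos hd) (by omega)

/-- `Nat.gcd` is primitive recursive. -/
theorem primrec₂_nat_gcd : Primrec₂ Nat.gcd := by
  have h : Primrec (fun p : ℕ × ℕ =>
      Nat.findGreatest (fun g => g ∣ p.1 ∧ g ∣ p.2) (p.1 + p.2)) :=
    Primrec.nat_findGreatest (Primrec.nat_add.comp Primrec.fst Primrec.snd)
      (PrimrecPred.and (primrecRel_nat_dvd.comp Primrec.snd (Primrec.fst.comp Primrec.fst))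
        (primrecRel_nat_dvd.comp Primrec.snd (Primrec.snd.comp Primrec.fst)))
  exact h.of_eq fun p => (nat_gcd_eq_findGreatest p.1 p.2).symm

/-! ### the codes of rationals -/

/-- The code of a rational under `Rat.instEncodable` (not the default `Primcodable` code). -/
def ratCode (q : ℚ) : ℕ := Nat.pair (encode q.num) q.den

theorem ratCode_eq (q : ℚ) : ratCode q = @encode ℚ Rat.instEncodable q := rfl

/-- The predicate "is the `Rat.instEncodable`-code of a rational". -/
def IsRatCode (m : ℕ) : Prop :=
  0 < (Nat.unpair m).2 ∧ Nat.gcd (ofNat ℤ (Nat.unpair m).1).natAbs (Nat.unpair m).2 = 1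

instance : DecidablePred IsRatCode := fun m => by unfold IsRatCode; infer_instance

theorem isRatCode_iff (m : ℕ) : IsRatCode m ↔ m ∈ Set.range (@encode ℚ Rat.instEncodable) := by
  constructor
  · rintro ⟨h1, h2⟩
    refine ⟨⟨ofNat ℤ (Nat.unpair m).1, (Nat.unpair m).2, Nat.pos_iff_ne_zero.1 h1, h2⟩, ?_⟩
    show Nat.pair (encode (ofNat ℤ (Nat.unpair m).1)) (Nat.unpair m).2 = m
    rw [encode_ofNat, Nat.pair_unpair]
  · rintro ⟨q, rfl⟩
    show IsRatCode (Nat.pair (encode q.num) q.den)
    unfold IsRatCode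
    rw [Nat.unpair_pair]
    simp only [ofNat_encode]
    exact ⟨q.den_pos, q.reduced⟩

theorem isRatCode_ratCode (q : ℚ) : IsRatCode (ratCode q) :=
  (isRatCode_iff _).2 ⟨q, rfl⟩

theorem primrecPred_isRatCode : PrimrecPred IsRatCode := by
  unfold IsRatCode
  refine PrimrecPred.and ?_ ?_
  · exact Primrec.nat_lt.comp (Primrec.const 0) (Primrec.snd.comp Primrec.unpair)
  · exact Primrec.eq.comp
      (primrec₂_nat_gcd.comp
        (primrec_int_natAbs.comp ((Primrec.ofNat ℤ).comp (Primrec.fst.comp Primrec.unpair)))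
        (Primrec.snd.comp Primrec.unpair))
      (Primrec.const 1)

/-- The number of rational codes below `m`. -/
def ratCnt (m : ℕ) : ℕ := ((List.range m).filter (fun k => decide (IsRatCode k))).length

theorem primrec_ratCnt : Primrec ratCnt :=
  Primrec.list_length.comp ((Primrec.listFilter primrecPred_isRatCode).comp Primrec.list_range)

theorem ratCnt_succ (m : ℕ) : ratCnt (m + 1) = ratCnt m + if IsRatCode m then 1 else 0 := by
  unfold ratCnt
  rw [List.range_succ, List.filter_append, List.length_append]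
  congr 1
  by_cases h : IsRatCode m <;> simp [h]

theorem ratCnt_mono : Monotone ratCnt := by
  refine monotone_nat_of_le_succ fun m => ?_
  rw [ratCnt_succ]
  exact Nat.le_add_right _ _

theorem ratCnt_lt {m m' : ℕ} (hm : IsRatCode m) (h : m < m') : ratCnt m < ratCnt m' := by
  have h1 : ratCnt (m + 1) = ratCnt m + 1 := by rw [ratCnt_succ, if_pos hm]
  have h2 : ratCnt (m + 1) ≤ ratCnt m' := ratCnt_mono h
  omega

theorem isRatCode_pair_one (k : ℕ) : IsRatCode (Nat.pair k 1) := by
  unfold IsRatCode
  rw [Nat.unpair_pair]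
  exact ⟨Nat.one_pos, Nat.gcd_one_right _⟩

theorem le_ratCnt_pair (k : ℕ) : k ≤ ratCnt (Nat.pair k 1) := by
  induction k with
  | zero => exact Nat.zero_le _
  | succ k ih =>
    have := ratCnt_lt (isRatCode_pair_one k) (Nat.pair_lt_pair_left 1 (Nat.lt_add_one k))
    omega

/-- The default code of a rational: the number of rational codes below its `ratCode`. -/
theorem encode_rat (q : ℚ) :
    @encode ℚ (Primcodable.ofDenumerable ℚ).toEncodable q = ratCnt (ratCode q) := by
  have h : @encode ℚ (Primcodable.ofDenumerable ℚ).toEncodable q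
      = (List.range (ratCode q)).countP (fun m =>
          @decide (m ∈ Set.range (@encode ℚ Rat.instEncodable)) (decidableRangeEncode ℚ m)) := rfl
  rw [h, ratCnt, List.countP_eq_length_filter]
  congr 2
  funext k
  simp only [decide_eq_decide]
  exact (isRatCode_iff k).symm

theorem ratCode_ofNat (n : ℕ) :
    ratCode (ofNat ℚ n) = Nat.findGreatest (fun m => ratCnt m ≤ n) (Nat.pair (n + 1) 1) := by
  symm
  have hn : ratCnt (ratCode (ofNat ℚ n)) = n := by
    rw [← encode_rat]
    exact encode_ofNat n
  have hc := isRatCode_ratCode (ofNat ℚ n)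
  rw [Nat.findGreatest_eq_iff]
  refine ⟨?_, fun _ => hn.le, ?_⟩
  · by_contra hlt
    have h1 := ratCnt_mono (not_le.1 hlt).le
    have h2 := le_ratCnt_pair (n + 1)
    omega
  · intro k hk _ hle
    have := ratCnt_lt hc hk
    omega

/-- The `Rat.instEncodable`-code is primitive recursive (for the default `Primcodable ℚ`). -/
theorem primrec_ratCode : Primrec ratCode := by
  refine Primrec.ofNat_iff.2 ?_
  have h : Primrec (fun n : ℕ =>
      Nat.findGreatest (fun m => ratCnt m ≤ n) (Nat.pair (n + 1) 1)) :=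
    Primrec.nat_findGreatest (Primrec₂.natPair.comp Primrec.succ (Primrec.const 1))
      (Primrec.nat_le.comp (primrec_ratCnt.comp Primrec.snd) Primrec.fst)
  exact h.of_eq fun n => (ratCode_ofNat n).symm

/-- The numerator is primitive recursive. -/
theorem primrec_rat_num : Primrec (fun q : ℚ => q.num) := by
  have h : Primrec (fun q : ℚ => ofNat ℤ (Nat.unpair (ratCode q)).1) :=
    (Primrec.ofNat ℤ).comp (Primrec.fst.comp (Primrec.unpair.comp primrec_ratCode))
  refine h.of_eq fun q => ?_
  unfold ratCode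
  rw [Nat.unpair_pair]
  exact ofNat_encode _

/-- The denominator is primitive recursive. -/
theorem primrec_rat_den : Primrec (fun q : ℚ => q.den) := by
  have h : Primrec (fun q : ℚ => (Nat.unpair (ratCode q)).2) :=
    Primrec.snd.comp (Primrec.unpair.comp primrec_ratCode)
  refine h.of_eq fun q => ?_
  unfold ratCode
  rw [Nat.unpair_pair]

/-! ### integer division by a natural number -/

theorem int_ediv_natCast (z : ℤ) (g : ℕ) :
    z / (g : ℤ) = ((z.toNat / g : ℕ) : ℤ) - ((((-z).toNat + g - 1) / g : ℕ) : ℤ) := by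
  rcases Nat.eq_zero_or_pos g with rfl | hg
  · simp
  · rcases z with n | k
    · have h1 : (Int.ofNat n).toNat = n := rfl
      have h2 : (-(Int.ofNat n)).toNat = 0 := by
        have : (Int.ofNat n) = (n : ℤ) := rfl
        omega
      rw [h1, h2, Nat.zero_add, Nat.div_eq_of_lt (Nat.sub_lt hg Nat.one_pos)]
      simp
    · have h1 : (Int.negSucc k).toNat = 0 := rfl
      have h2 : (-(Int.negSucc k)).toNat = k + 1 := rfl
      have h3 : (k + 1 + g - 1) / g = k / g + 1 := by
        rw [show k + 1 + g - 1 = k + g by omega, Nat.add_div_right _ hg]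
      rw [h1, h2, h3, Nat.zero_div, Int.negSucc_ediv _ (by exact_mod_cast hg)]
      have h4 : (k : ℤ).ediv (g : ℤ) = (k : ℤ) / (g : ℤ) := rfl
      rw [h4]
      push_cast
      ring

variable {α : Type*} [Primcodable α]

/-- Composition form: floor division of an integer by a natural number. -/
theorem Primrec.int_ediv_nat {f : α → ℤ} {g : α → ℕ} (hf : Primrec f) (hg : Primrec g) :
    Primrec fun a => f a / (g a : ℤ) := by
  refine (Primrec.int_subNat
    (Primrec.nat_div.comp (Primrec.int_toNat hf) hg)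
    (Primrec.nat_div.comp
      (Primrec.nat_sub.comp (Primrec.nat_add.comp (Primrec.int_negPart hf) hg) (Primrec.const 1))
      hg)).of_eq fun a => ?_
  exact (int_ediv_natCast (f a) (g a)).symm

/-! ### `mkRat` -/

theorem ratCode_mkRat (z : ℤ) (d : ℕ) :
    ratCode (mkRat z d) =
      if d = 0 then Nat.pair (encode (0 : ℤ)) 1
      else Nat.pair (encode (z / ((d.gcd z.natAbs : ℕ) : ℤ))) (d / d.gcd z.natAbs) := by
  unfold ratCode
  rw [Rat.num_mkRat, Rat.den_mkRat]
  split_ifs <;> rfl

/-- `mkRat` is primitive recursive. -/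
theorem primrec₂_mkRat : Primrec₂ (fun (z : ℤ) (d : ℕ) => mkRat z d) := by
  refine Primrec.encode_iff.1 ?_
  have hgcd : Primrec (fun p : ℤ × ℕ => p.2.gcd p.1.natAbs) :=
    primrec₂_nat_gcd.comp Primrec.snd (primrec_int_natAbs.comp Primrec.fst)
  have h : Primrec (fun p : ℤ × ℕ =>
      ratCnt (if p.2 = 0 then Nat.pair (encode (0 : ℤ)) 1
        else Nat.pair (encode (p.1 / ((p.2.gcd p.1.natAbs : ℕ) : ℤ)))
          (p.2 / p.2.gcd p.1.natAbs))) :=
    primrec_ratCnt.comp (Primrec.ite (Primrec.eq.comp Primrec.snd (Primrec.const 0))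
      (Primrec.const _)
      (Primrec₂.natPair.comp (Primrec.encode.comp (Primrec.int_ediv_nat Primrec.fst hgcd))
        (Primrec.nat_div.comp Primrec.snd hgcd)))
  refine h.of_eq fun p => ?_
  rw [← ratCode_mkRat]
  exact (encode_rat _).symm

/-! ### composition forms of the core -/

theorem Primrec.rat_num {f : α → ℚ} (hf : Primrec f) : Primrec fun a => (f a).num :=
  primrec_rat_num.comp hf

theorem Primrec.rat_den {f : α → ℚ} (hf : Primrec f) : Primrec fun a => (f a).den :=
  primrec_rat_den.comp hf

theorem Primrec.rat_mkRat {f : α → ℤ} {g : α → ℕ} (hf : Primrec f) (hg : Primrec g) :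
    Primrec fun a => mkRat (f a) (g a) :=
  primrec₂_mkRat.comp hf hg

end Crest.Agent.Helper26
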