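import Crest.Agent.Helper26.PrimrecInt

/-!
# INTERFACE (placeholders) for the primitive recursive core of rational arithmetic

S0170 work package A4 (owner of the core: helper26).  The three facts below are what
`Crest/Agent/Helper26/PrimrecRat.lean` will prove, with the SAME names in the namespace
`Crest.Agent.Helper26` (without the `RatSpec` component).  While that file is unfinished,
import this one and use `RatSpec.primrec_rat_num` etc.; afterwards switch the import and
drop `RatSpec.`.  Never import this file from a finished package.

All statements are with respect to the default instance `Primcodable ℚ`
(`Primcodable.ofDenumerable ℚ` with `Denumerable.ofEncodableOfInfinite ℚ`) and the default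
`Primcodable ℤ`.
-/

namespace Crest.Agent.Helper26.RatSpec

/-- The numerator is primitive recursive. -/
theorem primrec_rat_num : Primrec (fun q : ℚ => q.num) := sorry

/-- The denominator is primitive recursive. -/
theorem primrec_rat_den : Primrec (fun q : ℚ => q.den) := sorry

/-- `mkRat` (normalising constructor; `mkRat z d = z / d` in `ℚ`, see `Rat.mkRat_eq_div`)
is primitive recursive. -/
theorem primrec₂_mkRat : Primrec₂ (fun (z : ℤ) (d : ℕ) => mkRat z d) := sorry

end Crest.Agent.Helper26.RatSpec
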